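import Vale.Agent.P153.R2.KPOS.H829.Sym
import Vale.Agent.P153.R2.KPOS.H460.Inst

/-!
# P153, block KPOS [SYM]: rhombi and hexagons for `{h ≥ 1}` in the hexagonal domains
-/

namespace Vale.Agent.P153.R2.KPOS.H829

open Vale.Agent.P153 Vale.Agent.P153.R2 Vale.Agent.P153.Topo Vale.Agent.P153.F.RSW
open Vale.Agent.P153.R2.KPOS.H536 Vale.Agent.P153.R2.KPOS.H460

theorem On_ex {R K : Set (ℤ × ℤ)} (hK : K ⊆ R) (P : ℤ × ℤ → ℤ × ℤ → Prop) :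
    On R (fun S => ∃ x y, Conn (S ∩ K) x y ∧ P x y) := by
  rintro S T hST ⟨x, y, h, hp⟩
  refine ⟨x, y, h.mono ?_, hp⟩
  rintro z ⟨hz, hzK⟩
  exact ⟨(hST z (hK hzK)).1 hz, hzK⟩

theorem Hx_nb (R : ℤ) : Hx R ⊆ nb (Hx R) := fun _ hx => Or.inl hx

theorem pr_Hx {h R : ℤ} (hR : 4 * h ≤ R) : pr 0 h 0 h ⊆ nb (Hx R) := by
  rintro ⟨x, y⟩ hz
  rw [mem_pr] at hz
  dsimp only at hz
  refine Hx_nb R ⟨?_, ?_, ?_⟩ <;> dsimp only <;> rw [abs_le] <;> omega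

theorem hex_Hx {n R : ℤ} (hR : 4 * n ≤ R) : F.RSW.hex 0 0 n ⊆ nb (Hx R) := by
  rintro ⟨x, y⟩ hz
  rw [mem_hex0] at hz
  dsimp only at hz
  refine Hx_nb R ⟨?_, ?_, ?_⟩ <;> dsimp only <;> rw [abs_le] <;> omega

theorem lx_one (R : ℤ) : 1 ≤ (lx R).p fun _ => True := by
  refine le_of_eq ?_
  unfold lx
  rw [lw_p]
  exact (Pr_univ (cfg_fin (Hx_fin R)) (cfg_ne (Hx R))).symm

/-- **Rhombi** are crossed by `{h ≥ 1}` with probability at least `1 / 2`. -/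
theorem sq_ge {h R : ℤ} (hh : 0 ≤ h) (hR : 4 * h ≤ R) : 1 / 2 ≤ (lx R).p (LRp 0 h 0 h) := by
  refine sq_half (lx_one R) (fun E _ => lx_sw R E) hh (le_of_eq ?_)
  exact lw_flip (Hx_fin R) (On_ex (pr_Hx hR) (fun x y => x.2 = 2 * 0 ∧ y.2 = 2 * h))

/-- **Hexagons** are crossed by `{h ≥ 1}` with probability at least `1 / 32`. -/
theorem hx_ge {n R : ℤ} (hn : 1 ≤ n) (hR : 4 * n ≤ R) :
    1 / 32 ≤ (lx R).p (HT 0 0 n (-n) n) := by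
  refine hx_bound (lx_one R) (fun E _ => lx_rx R E) (fun E _ => lx_ry R E) (fun E _ => lx_sw R E)
    (by omega) (le_of_eq ?_)
  exact lw_flip (Hx_fin R) (On_ex (hex_Hx hR) (fun x y => x.2 = 4 * (0 - n) ∧ y.2 = 4 * (0 + n) ∧
    4 * (-n) ≤ 2 * y.1 + y.2 ∧ 2 * y.1 + y.2 ≤ 4 * n))

end Vale.Agent.P153.R2.KPOS.H829
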