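import Vale.Agent.P153.Bd5.B5

/-!
# P153, block KPOS: the barrier made of `K + 1` shifted crosses

`K + 1` copies of the cross event `XX 0 q m a`, with the centres `q = (2 i - K) a`, `0 ≤ i ≤ K`, are
joined to each other and together they join every two paths which come from below (above) and land
on the top (bottom) line between `-(K + 1) a` and `(K + 1) a`.
-/

namespace Vale.Agent.P153.R2.KPOS.H829

open Vale.Agent.P153 Vale.Agent.P153.Topo Vale.Agent.P153.F.RSW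

/-- The centre of the `i`-th copy. -/
def ctr (K : ℕ) (a : ℤ) (i : ℕ) : ℤ := (2 * (i : ℤ) - K) * a

theorem ctr_succ (K : ℕ) (a : ℤ) (i : ℕ) : ctr K a (i + 1) = ctr K a i + 2 * a := by
  unfold ctr
  push_cast
  ring

theorem ctr_zero (K : ℕ) (a : ℤ) : ctr K a 0 = -(K * a) := by
  unfold ctr
  push_cast
  ring

theorem ctr_last (K : ℕ) (a : ℤ) : ctr K a K = K * a := by
  unfold ctr
  ring

theorem ctr_bd {K : ℕ} {a : ℤ} (ha : 0 ≤ a) {i : ℕ} (hi : i ≤ K) :
    -(K * a) ≤ ctr K a i ∧ ctr K a i ≤ K * a := by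
  unfold ctr
  have h1 : (0 : ℤ) ≤ (i : ℤ) * a := mul_nonneg (by positivity) ha
  have h2 : (0 : ℤ) ≤ ((K : ℤ) - i) * a := mul_nonneg (by
    have : (i : ℤ) ≤ K := by exact_mod_cast hi
    omega) ha
  constructor <;> nlinarith

/-- **The barrier.** The copies of the cross form one cluster inside the strip. -/
theorem barrier {K : ℕ} {a m A B : ℤ} {S : Set (ℤ × ℤ)} (ha : 0 ≤ a)
    (hA : A ≤ 2 * (-(K * a) - 2 * m)) (hB : 2 * (K * a + 2 * m) ≤ B)
    (hX : ∀ i : ℕ, i ≤ K → XX 0 (ctr K a i) m a S) :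
    ∃ t1 t2 b1 b2 o r : ℤ × ℤ, let T := S ∩ Rect A B (-(4 * m)) (4 * m)
      Conn T t2 t1 ∧ Conn T t2 b1 ∧ Conn T t2 b2 ∧ Conn T t2 o ∧ Conn T t2 r ∧
      o.1 = 2 * (-(K * a) - 2 * m) ∧ r.1 = 2 * (K * a + 2 * m) ∧
      t1.2 = 4 * m ∧ 4 * ((K + 1) * a) ≤ 2 * t1.1 + t1.2 ∧
      t2.2 = 4 * m ∧ 2 * t2.1 + t2.2 ≤ -(4 * ((K + 1) * a)) ∧
      b1.2 = -(4 * m) ∧ 4 * ((K + 1) * a) ≤ 2 * b1.1 + b1.2 ∧
      b2.2 = -(4 * m) ∧ 2 * b2.1 + b2.2 ≤ -(4 * ((K + 1) * a)) := by
  have hsub : ∀ i : ℕ, i ≤ K → S ∩ hex 0 (ctr K a i) m ⊆ S ∩ Rect A B (-(4 * m)) (4 * m) := by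
    intro i hi z hz
    refine ⟨hz.1, ?_⟩
    have h1 := hz.2
    have h2 := ctr_bd ha hi
    rw [mem_hex] at h1
    rw [mem_rect]
    omega
  -- the first copy
  obtain ⟨o0, t10, t20, b10, b20, r0, g1, g2, g3, g4, g5, e1, e2, e3, e4, e5, e6, e7, e8, e9, e10⟩ :=
    (hX 0 (Nat.zero_le _)).cluster
  have key : ∀ i : ℕ, i ≤ K → ∃ t1 b1 r : ℤ × ℤ, let T := S ∩ Rect A B (-(4 * m)) (4 * m)
      Conn T t20 t1 ∧ Conn T t20 b1 ∧ Conn T t20 r ∧ r.1 = 2 * (ctr K a i + 2 * m) ∧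
      t1.2 = 4 * m ∧ 4 * (ctr K a i + a) ≤ 2 * t1.1 + t1.2 ∧
      b1.2 = -(4 * m) ∧ 4 * (ctr K a i + a) ≤ 2 * b1.1 + b1.2 := by
    intro i
    induction i with
    | zero =>
      intro _
      refine ⟨t10, b10, r0, ?_, ?_, ?_, by omega, by omega, by omega, by omega, by omega⟩
      · exact (g2.symm.trans g1).mono (hsub 0 (Nat.zero_le _))
      · exact (g2.symm.trans g3).mono (hsub 0 (Nat.zero_le _))
      · exact (g2.symm.trans g5).mono (hsub 0 (Nat.zero_le _))
    | succ i ih =>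
      intro hi
      obtain ⟨t1, b1, r1, k1, k2, _, _, k3, k4, k5, k6⟩ := ih (by omega)
      obtain ⟨o, s1, s2, c1, c2, r, f1, f2, f3, f4, f5, d1, d2, d3, d4, d5, d6, d7, d8, d9, d10⟩ :=
        (hX (i + 1) hi).cluster
      have hc := ctr_succ K a i
      have hle := hsub (i + 1) hi
      -- the path `c1 → s2` (right copy) meets the cluster of the left copies
      have f23 : Conn (S ∩ Rect A B (-(4 * m)) (4 * m)) c1 s2 := (f3.symm.trans f2).mono hle
      -- a bottom point of the left copies which is to the left of `c1`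
      obtain ⟨z, hz1, hz2⟩ : ∃ z, Conn (S ∩ Rect A B (-(4 * m)) (4 * m)) c1 z ∧
          Conn (S ∩ Rect A B (-(4 * m)) (4 * m)) b20 z := by
        have hb20 : Conn (S ∩ Rect A B (-(4 * m)) (4 * m)) b20 t1 := by
          have h1 : Conn (S ∩ Rect A B (-(4 * m)) (4 * m)) b20 t20 :=
            (g4.symm.trans g2).mono (hsub 0 (Nat.zero_le _))
          exact h1.trans k1
        have hbd0 := ctr_bd ha (show i + 1 ≤ K from hi)
        have hz0 := ctr_zero K a
        exact interV (a := A) (b := B) (c := -(4 * m)) (d := 4 * m) Set.inter_subset_right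
          Set.inter_subset_right f23 (by omega) (by omega) hb20 (by omega) (by omega) (by omega)
          (by omega)
      have h20 : Conn (S ∩ Rect A B (-(4 * m)) (4 * m)) b20 t20 :=
        (g4.symm.trans g2).mono (hsub 0 (Nat.zero_le _))
      have hc1 : Conn (S ∩ Rect A B (-(4 * m)) (4 * m)) t20 c1 :=
        h20.symm.trans (hz2.trans hz1.symm)
      refine ⟨s1, c1, r, ?_, hc1, ?_, by omega, by omega, by omega, by omega, by omega⟩
      · exact hc1.trans ((f3.symm.trans f1).mono hle)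
      · exact hc1.trans ((f3.symm.trans f5).mono hle)
  obtain ⟨t1, b1, r, k1, k2, k7, k8, k3, k4, k5, k6⟩ := key K le_rfl
  have hl := ctr_last K a
  have h0 := ctr_zero K a
  rw [hl] at k4 k6 k8
  rw [h0] at e4 e8
  have e11 : ((K : ℤ) + 1) * a = K * a + a := by ring
  refine ⟨t1, t20, b1, b20, o0, r, k1, k2, ?_, ?_, k7, by omega, k8, k3, by rw [e11]; omega,
    by omega, by rw [e11]; omega, k5, by rw [e11]; omega, by omega, by rw [e11]; omega⟩
  · exact (g2.symm.trans g4).mono (hsub 0 (Nat.zero_le _))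
  · exact g2.symm.mono (hsub 0 (Nat.zero_le _))

/-- **Two landing paths joined by `K + 1` shifted crosses** (`K = 0` is `Geo.f1`). -/
theorem f1k {n m v a : ℤ} {K : ℕ} {S : Set (ℤ × ℤ)} (h0 : 0 ≤ a) (_hm : 0 < m) (hmn : m ≤ n)
    (hv : 0 ≤ v) (hv' : v + K * a ≤ 3 * (n - m))
    (hl : HT (m - n) (-v) n (-((K + 1) * a)) ((K + 1) * a) S)
    (hr : HM (n - m) (-v) n (-((K + 1) * a)) ((K + 1) * a) S)
    (hX : ∀ i : ℕ, i ≤ K → XX 0 (ctr K a i) m a S) :
    BTp (-v - (3 * n - m)) (-v + (3 * n - m)) (-(4 * n - 2 * m)) (4 * n - 2 * m) S := by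
  have hKa : (0 : ℤ) ≤ K * a := mul_nonneg (by positivity) h0
  obtain ⟨t1, t2, b1, b2, _, _, c1, c2, c3, _, _, _, _, e1, e2, e3, e4, e5, e6, e7, e8⟩ :=
    barrier (A := 2 * (-v - (3 * n - m))) (B := 2 * (-v + (3 * n - m))) h0 (by omega) (by omega) hX
  obtain ⟨x, x', hx, hxa, hxb, hxc, hxd⟩ := hl
  obtain ⟨y, y', hy, hya, hyb, hyc, hyd⟩ := hr
  set R := pr (-v - (3 * n - m)) (-v + (3 * n - m)) (-(4 * n - 2 * m)) (4 * n - 2 * m) with hR
  set T := Rect (2 * (-v - (3 * n - m))) (2 * (-v + (3 * n - m))) (-(4 * m)) (4 * m) with hT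
  have s0 : T ⊆ R := by
    intro z hz
    rw [hT, mem_rect] at hz
    rw [hR, mem_pr]
    omega
  have s1 : hex (m - n) (-v) n ⊆ R := by
    intro z hz
    rw [mem_hex] at hz
    rw [hR, mem_pr]
    omega
  have s2 : hex (n - m) (-v) n ⊆ R := by
    intro z hz
    rw [mem_hex] at hz
    rw [hR, mem_pr]
    omega
  obtain ⟨z, hz1, hz2⟩ := landT (S := S ∩ hex (m - n) (-v) n) (T := S ∩ T)
    (a := 2 * (-v - (3 * n - m))) (b := 2 * (-v + (3 * n - m))) (c := 4 * (m - 2 * n))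
    (d := 4 * m)
    (by
      intro z hz
      have := hz.2
      rw [mem_hex] at this
      rw [mem_rect]
      omega)
    (by
      intro z hz
      have := hz.2
      rw [hT, mem_rect] at this
      rw [mem_rect]
      omega)
    hx (by omega) (by omega) c1 (by omega) (by omega) (by omega) (by omega)
  obtain ⟨w, hw1, hw2⟩ := landB (S := S ∩ hex (n - m) (-v) n) (T := S ∩ T)
    (a := 2 * (-v - (3 * n - m))) (b := 2 * (-v + (3 * n - m))) (c := -(4 * m))
    (d := 4 * (2 * n - m))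
    (by
      intro z hz
      have := hz.2
      rw [mem_hex] at this
      rw [mem_rect]
      omega)
    (by
      intro z hz
      have := hz.2
      rw [hT, mem_rect] at this
      rw [mem_rect]
      omega)
    hy (by omega) (by omega) (c3.symm.trans c2) (by omega) (by omega) (by omega) (by omega)
  have k1 := c_join s1 s0 hz1 hz2
  have k2 := c_join s2 s0 hw1 hw2
  have k3 := c3.mono (Set.inter_subset_inter_right S s0)
  exact ⟨x, y, (k1.trans k3).trans k2.symm, by omega, by omega⟩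

/-- **Zig-zag of `K + 1` shifted crosses**: a long crossing of a thin strip. -/
theorem zigk {m a : ℤ} {K : ℕ} {S : Set (ℤ × ℤ)} (h0 : 0 ≤ a)
    (hX : ∀ i : ℕ, i ≤ K → XX 0 (ctr K a i) m a S) :
    LRp (-(K * a) - 2 * m) (K * a + 2 * m) (-(2 * m)) (2 * m) S := by
  obtain ⟨t1, t2, b1, b2, o, r, _, _, _, c1, c2, e1, e2, _⟩ :=
    barrier (A := 2 * (-(K * a) - 2 * m)) (B := 2 * (K * a + 2 * m)) h0 le_rfl le_rfl hX
  refine ⟨o, r, (c1.symm.trans c2).mono (Set.inter_subset_inter_right S ?_), e1, e2⟩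
  intro z hz
  rw [mem_rect] at hz
  rw [mem_pr]
  omega

end Vale.Agent.P153.R2.KPOS.H829
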