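import Vale.Agent.P153.Bd5.B20
import Vale.Agent.P153.R2.KPOS.H536.Law

/-!
# P153, block KPOS [SYM]: rhombi and hexagons for a self-dual symmetric law

`S` is a random set of vertices of the triangular lattice `ℤ × ℤ`. Site duality: in every
parallelogram either `S` joins left to right or the complement of `S` joins bottom to top, and in
the hexagon either `S` joins the left sides to the right sides or the complement joins the bottom
side to the top side. If the law is symmetric under the exchange of `S` and its complement (flip)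
and under the reflections, the rhombi are crossed with probability at least `1 / 2` and the hexagons
with probability at least `1 / 32`.
-/

namespace Vale.Agent.P153.R2.KPOS.H829

open Vale.Agent.P153 Vale.Agent.P153.Topo Vale.Agent.P153.F.RSW Vale.Agent.P153.R2.KPOS.H536

/-- **Site duality in a parallelogram.** -/
theorem dual_rh (S : Set (ℤ × ℤ)) {a b c d : ℤ} (hab : a ≤ b) (hcd : c ≤ d) :
    LRp a b c d S ∨ BTp a b c d Sᶜ := by
  rcases Topo.hex S (a := 2 * a) (b := 2 * b) (c := 2 * c) (d := 2 * d) (by omega) (by omega)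
    with h | h
  · exact Or.inl h
  · exact Or.inr h

/-- **Site duality in a hexagon.** -/
theorem dual_hx (S : Set (ℤ × ℤ)) {n : ℤ} (hn : 0 < n) : LU n S ∨ HT 0 0 n (-n) n Sᶜ := by
  rcases Topo.hex ((S ∩ F.RSW.hex 0 0 n) ∪ {z | 4 * n < z.1 + z.2 ∨ z.1 + z.2 < -(4 * n)})
    (a := -(4 * n)) (b := 4 * n) (c := -(4 * n)) (d := 4 * n) (by omega) (by omega) with h | h
  · obtain ⟨x, y, h, hx, hy⟩ := h
    exact Or.inl (hx_extract hn h hx hy)
  · obtain ⟨x, y, h, hx, hy⟩ := h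
    have h' : Conn (Sᶜ ∩ F.RSW.hex 0 0 n) x y := by
      refine h.mono ?_
      rintro z ⟨h1, h2⟩
      rw [Set.mem_compl_iff, Set.mem_union, not_or] at h1
      have h3 : z ∈ F.RSW.hex 0 0 n := by
        rw [mem_hex0]
        rw [mem_rect] at h2
        have h4 := h1.2
        simp only [Set.mem_ofPred_eq, not_or, not_lt] at h4
        omega
      exact ⟨fun h4 => h1.1 ⟨h4, h3⟩, h3⟩
    have hy' := mem_hex0.1 h'.right_mem.2
    exact Or.inr ⟨x, y, h', by omega, by omega, by omega, by omega⟩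

theorem IL_cp {g : ℤ × ℤ → ℤ × ℤ} (hg : ∀ N : ℤ, ∃ M : ℤ, ∀ z : ℤ × ℤ, |z.1| ≤ N → |z.2| ≤ N →
    |(g z).1| ≤ M ∧ |(g z).2| ≤ M) {E : Set (ℤ × ℤ) → Prop} (h : IL E) : IL (cp g E) := by
  refine ⟨fun S T hST hS => h.1 _ _ (fun z hz => hST hz) hS, ?_⟩
  obtain ⟨N, hN⟩ := h.2
  obtain ⟨M, hM⟩ := hg N
  exact ⟨M, fun S T hST hS => hN _ _ (fun z h1 h2 => hST (g z) (hM z h1 h2).1 (hM z h1 h2).2) hS⟩

theorem IL_rx {E : Set (ℤ × ℤ) → Prop} (h : IL E) : IL (cp rx E) :=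
  IL_cp (fun N => ⟨2 * |N|, fun z h1 h2 => by
    have := le_abs_self N
    rw [abs_le] at h1 h2
    simp only [rx]
    constructor <;> rw [abs_le] <;> omega⟩) h

theorem IL_ry {E : Set (ℤ × ℤ) → Prop} (h : IL E) : IL (cp ry E) :=
  IL_cp (fun N => ⟨2 * |N|, fun z h1 h2 => by
    have := le_abs_self N
    rw [abs_le] at h1 h2
    simp only [ry]
    constructor <;> rw [abs_le] <;> omega⟩) h

theorem IL_LU' (n : ℤ) : IL (LU n) :=
  IL_ex _ (hex_bdd 0 0 n) (fun x y => (x.1 = -(4 * n) ∨ x.1 + x.2 = -(4 * n)) ∧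
    (y.1 = 4 * n ∨ y.1 + y.2 = 4 * n))

theorem IL_C2' (n : ℤ) : IL (C2 n) :=
  IL_ex _ (hex_bdd 0 0 n) (fun x y => x.1 = -(4 * n) ∧ y.1 + y.2 = 4 * n)

theorem IL_C3' (n : ℤ) : IL (C3 n) :=
  IL_ex _ (hex_bdd 0 0 n) (fun x y => x.1 + x.2 = -(4 * n) ∧ y.1 = 4 * n)

theorem IL_C4' (n : ℤ) : IL (C4 n) :=
  IL_ex _ (hex_bdd 0 0 n) (fun x y => x.1 + x.2 = -(4 * n) ∧ y.1 + y.2 = 4 * n)

theorem IL_C5' (n : ℤ) : IL (C5 n) :=
  IL_ex _ (hex_bdd 0 0 n) (fun x y => x.2 = 4 * n ∧ y.1 + y.2 = -(4 * n))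

variable {P : Law}

/-- **Rhombi.** -/
theorem sq_half (h1 : 1 ≤ P.p fun _ => True)
    (hsw : ∀ E, IL E → P.p (cp sw E) = P.p E) {h : ℤ} (hh : 0 ≤ h)
    (hfl : P.p (fun S => BTp 0 h 0 h Sᶜ) ≤ P.p (BTp 0 h 0 h)) :
    1 / 2 ≤ P.p (LRp 0 h 0 h) := by
  have e1 : P.p (BTp 0 h 0 h) = P.p (LRp 0 h 0 h) := by
    rw [← hsw _ (IL_LRp 0 h 0 h), cp_sw_LRp]
  have e2 : (1 : ℝ) ≤ P.p (LRp 0 h 0 h) + P.p (fun S => BTp 0 h 0 h Sᶜ) :=
    h1.trans ((P.mono _ (fun S => LRp 0 h 0 h S ∨ BTp 0 h 0 h Sᶜ)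
      fun S _ => dual_rh S hh hh).trans (P.or_le _ _))
  linarith

/-- **Hexagons.** -/
theorem hx_bound (h1 : 1 ≤ P.p fun _ => True)
    (hrx : ∀ E, IL E → P.p (cp rx E) = P.p E) (hry : ∀ E, IL E → P.p (cp ry E) = P.p E)
    (hsw : ∀ E, IL E → P.p (cp sw E) = P.p E) {n : ℤ} (hn : 0 < n)
    (hfl : P.p (fun S => HT 0 0 n (-n) n Sᶜ) ≤ P.p (HT 0 0 n (-n) n)) :
    1 / 32 ≤ P.p (HT 0 0 n (-n) n) := by
  have hCT : P.p (HT 0 0 n (-n) n) = P.p (CT 0 0 n) := by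
    rw [← hsw _ (IL_CT 0 0 n), cp_sw_CT]
  have hC4 : P.p (C4 n) = P.p (CT 0 0 n) := by
    rw [← hry _ (IL_C4' n)]
    congr 1
    funext S
    exact propext C4_refl
  have hC3 : P.p (C3 n) = P.p (C2 n) := by
    rw [← hrx _ (IL_C2' n), ← hry _ (IL_rx (IL_C2' n))]
    congr 1
    funext S
    rw [← C2_refl]
    unfold cp
    congr 1
    ext z
    simp only [Set.mem_ofPred_eq, rx, ry]
    rw [show (-z.1 - z.2 + z.2 : ℤ) = -z.1 by ring]
  have hC5 : P.p (C5 n) = P.p (C2 n) := by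
    rw [← hrx _ (IL_C2' n), ← hry _ (IL_rx (IL_C2' n)), ← hsw _ (IL_ry (IL_rx (IL_C2' n)))]
    congr 1
    funext S
    rw [← C2_refl']
    unfold cp
    congr 1
    ext z
    simp only [Set.mem_ofPred_eq, rx, ry, sw]
    rw [show (-z.1 - z.2 + z.2 : ℤ) = -z.1 by ring]
  have e2 : (1 : ℝ) ≤ P.p (LU n) + P.p (fun S => HT 0 0 n (-n) n Sᶜ) :=
    h1.trans ((P.mono _ (fun S => LU n S ∨ HT 0 0 n (-n) n Sᶜ)
      fun S _ => dual_hx S hn).trans (P.or_le _ _))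
  have h4 : P.p (LU n) ≤ (P.p (CT 0 0 n) + P.p (C2 n)) + (P.p (C3 n) + P.p (C4 n)) := by
    refine le_trans (P.mono _ (fun S => (CT 0 0 n S ∨ C2 n S) ∨ (C3 n S ∨ C4 n S))
      fun S hS => LU_cases hS) ?_
    exact (P.or_le _ _).trans (add_le_add (P.or_le _ _) (P.or_le _ _))
  rw [hC3, hC4] at h4
  by_contra hcon
  push Not at hcon
  have h6 : 7 / 32 ≤ P.p (C2 n) := by linarith
  have h7 := (mul_le_mul h6 (hC5.symm ▸ h6) (by norm_num) (P.nonneg _)).trans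
    (P.fkg _ _ (IL_C2' n) (IL_C5' n))
  have h8 := P.mono _ (C4 n) fun S (hS : C2 n S ∧ C5 n S) => C25 hS.1 hS.2
  rw [hC4, ← hCT] at h8
  linarith

end Vale.Agent.P153.R2.KPOS.H829
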